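import Vale.Agent.P133.Main

namespace Vale.Agent.Results.P133.PIimpliesSPI

open Vale.Agent.P133

universe u

theorem result (C : Type u) [NonUnitalCStarAlgebra C] [PartialOrder C] [StarOrderedRing C]
    (h : PurelyInfinite C) : StronglyPurelyInfinite C :=
  spi_of_pi h

end Vale.Agent.Results.P133.PIimpliesSPI
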